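import Vale.Agent.P166F.Defs

/-!
P166: tails of overlap laws, and the R-transform of a compactly supported law.
-/

namespace Vale.Agent.P166F

open MeasureTheory Filter Set
open scoped Topology

/-- Laws on the unit interval. -/
structure OLaw (ν : Measure ℝ) : Prop where
  prob : IsProbabilityMeasure ν
  unit : ∀ᵐ r ∂ν, r ∈ Icc (0 : ℝ) 1

lemma OLaw.integrable_tail {ν : Measure ℝ} (hν : OLaw ν) (q : ℝ) :
    Integrable (fun r => 1 - max q r) ν := by
  have := hν.prob
  refine Integrable.of_bound (by fun_prop) (1 + (|q| + 1)) ?_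
  filter_upwards [hν.unit] with r hr
  rw [Real.norm_eq_abs, abs_le]
  rcases max_choice q r with e | e <;> rw [e] <;>
    constructor <;> linarith [abs_nonneg q, le_abs_self q, neg_abs_le q, hr.1, hr.2]

lemma OLaw.tail_mem {ν : Measure ℝ} (hν : OLaw ν) {q : ℝ} (hq : q ∈ Icc (0 : ℝ) 1) :
    tail ν q ∈ Icc (0 : ℝ) 1 := by
  have := hν.prob
  constructor
  · refine integral_nonneg_of_ae ?_
    filter_upwards [hν.unit] with r hr
    simp only [Pi.zero_apply, sub_nonneg]
    exact max_le hq.2 hr.2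
  · calc tail ν q ≤ ∫ _, (1 : ℝ) ∂ν := by
          refine integral_mono_ae (hν.integrable_tail q) (integrable_const _) ?_
          filter_upwards [hν.unit] with r hr
          linarith [hq.1, le_max_left q r]
      _ = 1 := by simp

lemma OLaw.tail_lip {ν : Measure ℝ} (hν : OLaw ν) (q q' : ℝ) :
    |tail ν q - tail ν q'| ≤ |q - q'| := by
  have := hν.prob
  rw [tail, tail, ← integral_sub (hν.integrable_tail q) (hν.integrable_tail q')]
  have h : ∀ r : ℝ, ‖(1 - max q r) - (1 - max q' r)‖ ≤ |q - q'| := fun r => by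
    rw [Real.norm_eq_abs, show (1 - max q r) - (1 - max q' r) = max q' r - max q r by ring,
      abs_sub_comm q q']
    exact abs_max_sub_max_le_abs q' q r
  simpa using norm_integral_le_of_norm_le_const (μ := ν) (Eventually.of_forall h)

lemma OLaw.continuous_tail {ν : Measure ℝ} (hν : OLaw ν) : Continuous (tail ν) :=
  (LipschitzWith.of_dist_le' (K := 1) fun q q' => by
    simpa [Real.dist_eq] using hν.tail_lip q q').continuous

lemma tail_map_sub_le {π : Measure (ℝ × ℝ)} (h₁ : OLaw (π.map Prod.fst))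
    (h₂ : OLaw (π.map Prod.snd)) (q : ℝ) :
    |tail (π.map Prod.fst) q - tail (π.map Prod.snd) q| ≤ ∫ z, |z.1 - z.2| ∂π := by
  have hπ : IsProbabilityMeasure π := ⟨by
    have := h₁.prob.measure_univ
    rwa [Measure.map_apply measurable_fst MeasurableSet.univ, preimage_univ] at this⟩
  have u₁ : ∀ᵐ z ∂π, z.1 ∈ Icc (0 : ℝ) 1 := ae_of_ae_map measurable_fst.aemeasurable h₁.unit
  have u₂ : ∀ᵐ z ∂π, z.2 ∈ Icc (0 : ℝ) 1 := ae_of_ae_map measurable_snd.aemeasurable h₂.unit
  have i₁ : Integrable (fun z : ℝ × ℝ => 1 - max q z.1) π :=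
    (h₁.integrable_tail q).comp_measurable measurable_fst
  have i₂ : Integrable (fun z : ℝ × ℝ => 1 - max q z.2) π :=
    (h₂.integrable_tail q).comp_measurable measurable_snd
  have hd : Integrable (fun z : ℝ × ℝ => |z.1 - z.2|) π := by
    refine Integrable.of_bound (by fun_prop) 1 ?_
    filter_upwards [u₁, u₂] with z hz hz'
    rw [Real.norm_eq_abs, abs_abs, abs_le]
    constructor <;> linarith [hz.1, hz.2, hz'.1, hz'.2]
  rw [tail, tail, integral_map measurable_fst.aemeasurable (by fun_prop),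
    integral_map measurable_snd.aemeasurable (by fun_prop), ← integral_sub i₁ i₂]
  refine (abs_integral_le_integral_abs).trans (integral_mono (i₁.sub i₂).abs hd fun z => ?_)
  dsimp only [Pi.sub_apply]
  rw [show (1 - max q z.1) - (1 - max q z.2) = max q z.2 - max q z.1 by ring, abs_sub_comm z.1]
  rcases max_cases q z.1 with ⟨e, h⟩ | ⟨e, h⟩ <;> rcases max_cases q z.2 with ⟨e', h'⟩ | ⟨e', h'⟩ <;>
    rw [e, e', abs_le] <;> constructor <;>
    linarith [le_abs_self (z.2 - z.1), neg_abs_le (z.2 - z.1)]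

/-! ### The R-transform of a compactly supported law -/

variable {μ : Measure ℝ}

/-- The set defining `zf`. -/
def zset (μ : Measure ℝ) (w : ℝ) : Set ℝ := {z | sSup μ.support < z ∧ ∫ x, (z - x)⁻¹ ∂μ ≤ w}

lemma zset_bddBelow (μ : Measure ℝ) (w : ℝ) : BddBelow (zset μ w) := ⟨_, fun _ hz => hz.1.le⟩

lemma ae_le_sSup (hμ : IsCompact μ.support) : ∀ᵐ x ∂μ, x ≤ sSup μ.support := by
  filter_upwards [Measure.support_mem_ae (μ := μ)] with x hx using le_csSup hμ.bddAbove hx

lemma ae_sInf_le (hμ : IsCompact μ.support) : ∀ᵐ x ∂μ, sInf μ.support ≤ x := by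
  filter_upwards [Measure.support_mem_ae (μ := μ)] with x hx using csInf_le hμ.bddBelow hx

variable [IsProbabilityMeasure μ]

lemma cauchy_integrable (hμ : IsCompact μ.support) {z : ℝ} (hz : sSup μ.support < z) :
    Integrable (fun x => (z - x)⁻¹) μ := by
  refine Integrable.of_bound (by fun_prop) (z - sSup μ.support)⁻¹ ?_
  filter_upwards [ae_le_sSup hμ] with x hx
  have h : 0 < z - x := by linarith
  rw [Real.norm_eq_abs, abs_of_pos (inv_pos.2 h)]
  gcongr

omit [IsProbabilityMeasure μ] in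
lemma sInf_le_sSup (hμ : IsCompact μ.support) : sInf μ.support ≤ sSup μ.support :=
  Real.sInf_le_sSup _ hμ.bddBelow hμ.bddAbove

lemma mem_zset (hμ : IsCompact μ.support) {w : ℝ} (hw : 0 < w) :
    sSup μ.support + w⁻¹ ∈ zset μ w := by
  have h : sSup μ.support < sSup μ.support + w⁻¹ := lt_add_of_pos_right _ (inv_pos.2 hw)
  refine ⟨h, ?_⟩
  calc ∫ x, (sSup μ.support + w⁻¹ - x)⁻¹ ∂μ ≤ ∫ _, w ∂μ := by
        refine integral_mono_ae (cauchy_integrable hμ h) (integrable_const _) ?_
        filter_upwards [ae_le_sSup hμ] with x hx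
        calc (sSup μ.support + w⁻¹ - x)⁻¹ ≤ (w⁻¹)⁻¹ := by gcongr; linarith
          _ = w := inv_inv w
    _ = w := by simp

lemma zf_le (hμ : IsCompact μ.support) {w : ℝ} (hw : 0 < w) : zf μ w ≤ sSup μ.support + w⁻¹ :=
  csInf_le (zset_bddBelow μ w) (mem_zset hμ hw)

lemma le_zf (hμ : IsCompact μ.support) {w : ℝ} (hw : 0 < w) : sInf μ.support + w⁻¹ ≤ zf μ w := by
  refine le_csInf ⟨_, mem_zset hμ hw⟩ ?_
  rintro z ⟨hz, hle⟩
  have ha : 0 < z - sInf μ.support := by linarith [sInf_le_sSup hμ]
  have : (z - sInf μ.support)⁻¹ ≤ w := by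
    refine le_trans (le_trans (le_of_eq (by simp)) (integral_mono_ae
      (integrable_const (z - sInf μ.support)⁻¹) (cauchy_integrable hμ hz) ?_)) hle
    filter_upwards [ae_sInf_le hμ, ae_le_sSup hμ] with x hx hx'
    have : 0 < z - x := by linarith
    gcongr
  linarith [inv_le_of_inv_le₀ ha this]

lemma zf_antitoneOn (hμ : IsCompact μ.support) : AntitoneOn (zf μ) (Ioi 0) := fun _ hu v _ huv =>
  csInf_le_csInf (zset_bddBelow μ v) ⟨_, mem_zset hμ hu⟩ fun _ hz => ⟨hz.1, hz.2.trans huv⟩

/-- A bound on the R-transform. -/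
noncomputable def rbound (μ : Measure ℝ) : ℝ := |sInf μ.support| + |sSup μ.support|

lemma abs_rtr_le (hμ : IsCompact μ.support) (w : ℝ) : |rtr μ w| ≤ rbound μ := by
  rw [rtr, rbound]
  have h1 := neg_abs_le (sInf μ.support)
  have h2 := le_abs_self (sSup μ.support)
  have h3 := abs_nonneg (sInf μ.support)
  have h4 := abs_nonneg (sSup μ.support)
  split_ifs with hw
  · have hb : ∀ᵐ x ∂μ, ‖x‖ ≤ |sInf μ.support| + |sSup μ.support| := by
      filter_upwards [ae_sInf_le hμ, ae_le_sSup hμ] with x hx hx'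
      rw [Real.norm_eq_abs, abs_le]
      constructor <;> linarith
    simpa using norm_integral_le_of_norm_le_const hb
  · push Not at hw
    rw [abs_le]
    constructor <;> linarith [zf_le hμ hw, le_zf hμ hw]

lemma measurable_rtr (hμ : IsCompact μ.support) : Measurable (rtr μ) := by
  have hz : Measurable fun w : Ioi (0 : ℝ) => zf μ w :=
    Antitone.measurable fun u v huv => zf_antitoneOn hμ u.2 v.2 huv
  have : rtr μ = fun w => if h : w ≤ 0 then ∫ x, x ∂μ else zf μ w - w⁻¹ := by
    funext w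
    simp [rtr]
  rw [this]
  refine Measurable.dite (s := {w : ℝ | w ≤ 0}) (f := fun _ => ∫ x, x ∂μ)
    (g := fun w => zf μ w - (w : ℝ)⁻¹) measurable_const ?_ measurableSet_Iic
  refine Measurable.sub (hz.comp ?_) (measurable_subtype_coe.inv)
    (f := (fun w : Ioi (0 : ℝ) => zf μ w) ∘ fun w : ({w : ℝ | w ≤ 0}ᶜ : Set ℝ) =>
      (⟨(w : ℝ), lt_of_not_ge (fun h : (w : ℝ) ≤ 0 => w.2 h)⟩ : Ioi (0 : ℝ)))
  exact measurable_subtype_coe.subtype_mk

lemma intervalIntegrable_rtr (hμ : IsCompact μ.support) (β : ℝ) {ν : Measure ℝ} (hν : OLaw ν)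
    (x y : ℝ) : IntervalIntegrable (fun q => β * rtr μ (β * tail ν q)) volume x y := by
  refine (intervalIntegrable_const (c := |β| * rbound μ)).mono_fun ?_ ?_
  · exact ((measurable_const.mul ((measurable_rtr hμ).comp
      (measurable_const.mul hν.continuous_tail.measurable)))).aestronglyMeasurable
  · refine Eventually.of_forall fun q => ?_
    simp only [Real.norm_eq_abs, abs_mul]
    exact (mul_le_mul_of_nonneg_left (abs_rtr_le hμ _) (abs_nonneg β)).trans (le_abs_self _ |>.trans
      (by rw [abs_mul, abs_abs]))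

lemma abs_energy_le (hμ : IsCompact μ.support) (β : ℝ) (ν : Measure ℝ) :
    |energy μ β ν| ≤ |β| * rbound μ := by
  have h := intervalIntegral.norm_integral_le_of_norm_le_const (a := (0 : ℝ)) (b := 1)
    (f := fun q => β * rtr μ (β * tail ν q)) (C := |β| * rbound μ) fun q _ => by
      rw [Real.norm_eq_abs, abs_mul]
      exact mul_le_mul_of_nonneg_left (abs_rtr_le hμ _) (abs_nonneg β)
  rw [Real.norm_eq_abs, sub_zero, abs_one, mul_one] at h
  rw [energy, abs_div, abs_two]
  linarith [abs_nonneg (∫ q in (0 : ℝ)..1, β * rtr μ (β * tail ν q))]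

/-! ### Moving the spectrum -/

omit [IsProbabilityMeasure μ] in
lemma support_map_subset (hμ : IsCompact μ.support) {f : ℝ → ℝ} (hfm : Measurable f) {ε : ℝ}
    (hε : ∀ x, |f x - x| ≤ ε) :
    (μ.map f).support ⊆ Icc (sInf μ.support - ε) (sSup μ.support + ε) := by
  refine Measure.support_subset_of_isClosed isClosed_Icc ?_
  refine (ae_map_iff hfm.aemeasurable measurableSet_Icc).2 ?_
  filter_upwards [ae_sInf_le hμ, ae_le_sSup hμ] with x hx hx'
  have := abs_le.1 (hε x)
  constructor <;> linarith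

omit [IsProbabilityMeasure μ] in
lemma isCompact_support_map (hμ : IsCompact μ.support) {f : ℝ → ℝ} (hfm : Measurable f) {ε : ℝ}
    (hε : ∀ x, |f x - x| ≤ ε) : IsCompact (μ.map f).support :=
  isCompact_Icc.of_isClosed_subset Measure.isClosed_support (support_map_subset hμ hfm hε)

lemma zf_map_sub_le (hμ : IsCompact μ.support) {f : ℝ → ℝ} (hfm : Measurable f) {ε : ℝ}
    (hε : ∀ x, |f x - x| ≤ ε) {w : ℝ} (hw : 0 < w) : |zf (μ.map f) w - zf μ w| ≤ ε := by
  have := Measure.isProbabilityMeasure_map (μ := μ) hfm.aemeasurable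
  have hν : IsCompact (μ.map f).support := isCompact_support_map hμ hfm hε
  have hb : sSup (μ.map f).support ≤ sSup μ.support + ε :=
    csSup_le (Measure.nonempty_support (NeZero.ne _)) fun x hx => (support_map_subset hμ hfm hε hx).2
  have hb' : sSup μ.support ≤ sSup (μ.map f).support + ε := by
    refine csSup_le (Measure.nonempty_support (NeZero.ne _)) fun x hx => ?_
    refine (Measure.support_subset_of_isClosed isClosed_Iic ?_ hx :
      x ∈ Iic (sSup (μ.map f).support + ε))
    filter_upwards [ae_of_ae_map hfm.aemeasurable (ae_le_sSup hν)] with y hy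
    show y ≤ _
    linarith [(abs_le.1 (hε y)).1]
  have int : ∀ z, ∫ x, (z - x)⁻¹ ∂(μ.map f) = ∫ x, (z - f x)⁻¹ ∂μ := fun z =>
    integral_map hfm.aemeasurable (by fun_prop)
  have hint : ∀ {z}, sSup (μ.map f).support < z → Integrable (fun x => (z - f x)⁻¹) μ :=
    fun hz => (cauchy_integrable hν hz).comp_measurable hfm
  have h1 : zf (μ.map f) w ≤ zf μ w + ε := by
    rw [← sub_le_iff_le_add]
    refine le_csInf ⟨_, mem_zset hμ hw⟩ ?_
    rintro z ⟨hz, hle⟩
    rw [sub_le_iff_le_add]
    refine csInf_le (zset_bddBelow _ w) ⟨by linarith, ?_⟩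
    rw [int]
    refine le_trans (integral_mono_ae (hint (by linarith)) (cauchy_integrable hμ hz) ?_) hle
    filter_upwards [ae_le_sSup hμ] with x hx
    have := (abs_le.1 (hε x)).2
    exact inv_anti₀ (by linarith) (by linarith)
  have h2 : zf μ w ≤ zf (μ.map f) w + ε := by
    rw [← sub_le_iff_le_add]
    refine le_csInf ⟨_, mem_zset hν hw⟩ ?_
    rintro z ⟨hz, hle⟩
    rw [sub_le_iff_le_add]
    refine csInf_le (zset_bddBelow _ w) ⟨by linarith, ?_⟩
    refine le_trans (integral_mono_ae (cauchy_integrable hμ (by linarith)) (hint hz) ?_) ((int z).symm.trans_le hle)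
    filter_upwards [ae_of_ae_map hfm.aemeasurable (ae_le_sSup hν)] with x hx
    have := (abs_le.1 (hε x)).1
    exact inv_anti₀ (by linarith) (by linarith)
  rw [abs_le]
  constructor <;> linarith

lemma rtr_map_sub_le (hμ : IsCompact μ.support) {f : ℝ → ℝ} (hfm : Measurable f) {ε : ℝ}
    (hε : ∀ x, |f x - x| ≤ ε) (w : ℝ) : |rtr (μ.map f) w - rtr μ w| ≤ ε := by
  simp only [rtr]
  split_ifs with hw
  · have hi : Integrable (fun x : ℝ => x) μ := by
      refine Integrable.of_bound (by fun_prop) (rbound μ) ?_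
      filter_upwards [ae_sInf_le hμ, ae_le_sSup hμ] with x hx hx'
      rw [Real.norm_eq_abs, abs_le, rbound]
      constructor <;> linarith [neg_abs_le (sInf μ.support), le_abs_self (sSup μ.support),
        abs_nonneg (sInf μ.support), abs_nonneg (sSup μ.support)]
    have hfi : Integrable f μ := by
      refine (hi.norm.add (integrable_const ε)).mono' hfm.aestronglyMeasurable
        (Eventually.of_forall fun x => ?_)
      simp only [Pi.add_apply, Real.norm_eq_abs]
      linarith [hε x, abs_sub_abs_le_abs_sub (f x) x]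
    rw [integral_map hfm.aemeasurable (by fun_prop), ← integral_sub hfi hi]
    simpa using norm_integral_le_of_norm_le_const (μ := μ) (C := ε)
      (Eventually.of_forall fun x => (Real.norm_eq_abs _).trans_le (hε x))
  · rw [show zf (μ.map f) w - w⁻¹ - (zf μ w - w⁻¹) = zf (μ.map f) w - zf μ w by ring]
    exact zf_map_sub_le hμ hfm hε (not_le.1 hw)

end Vale.Agent.P166F
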