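import Vale.Agent.P166F.Defs

/-!
P166: the rescaled inverse Cauchy transform of an atomic spectrum. For every real `u` the root `E`
of `∑ w_i / (E - u λ_i) = 1` to the right of all `u λ_i` is convex in `u`, with derivative the
average of `λ` under weights proportional to `w_i / (E - u λ_i) ^ 2`.
-/

namespace Vale.Agent.P166F

open MeasureTheory Filter Set
open scoped Topology

variable {K : ℕ} (a : Atoms K)

include a in
lemma Atoms.univ_nonempty : (Finset.univ : Finset (Fin K)).Nonempty := by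
  rcases K with _ | K
  · simpa using a.total
  · exact Finset.univ_nonempty

lemma Atoms.wt_le_one (i : Fin K) : a.wt i ≤ 1 :=
  (Finset.single_le_sum (fun j _ => (a.pos j).le) (Finset.mem_univ i)).trans_eq a.total

lemma Atoms.exists_root (u : ℝ) :
    ∃ E, (∀ i, u * a.lam i < E) ∧ ∑ i, a.wt i / (E - u * a.lam i) = 1 := by
  obtain ⟨j, -, hj⟩ := Finset.exists_max_image Finset.univ (fun i => u * a.lam i) a.univ_nonempty
  have hj' : ∀ i, u * a.lam i ≤ u * a.lam j := fun i => hj i (Finset.mem_univ i)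
  have hle : u * a.lam j + a.wt j ≤ u * a.lam j + 1 := by linarith [a.wt_le_one j]
  have hpos : ∀ E ∈ Icc (u * a.lam j + a.wt j) (u * a.lam j + 1), ∀ i, 0 < E - u * a.lam i :=
    fun E hE i => by linarith [hE.1, hj' i, a.pos j]
  have hc : ContinuousOn (fun E => ∑ i, a.wt i / (E - u * a.lam i))
      (Icc (u * a.lam j + a.wt j) (u * a.lam j + 1)) :=
    continuousOn_finsetSum _ fun i _ =>
      continuousOn_const.div (continuousOn_id.sub continuousOn_const) fun E hE => (hpos E hE i).ne'
  have hlo : 1 ≤ ∑ i, a.wt i / (u * a.lam j + a.wt j - u * a.lam i) := by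
    refine le_trans (le_of_eq ?_) (Finset.single_le_sum (fun i _ => div_nonneg (a.pos i).le
      (hpos _ (left_mem_Icc.2 hle) i).le) (Finset.mem_univ j))
    rw [add_sub_cancel_left, div_self (a.pos j).ne']
  have hhi : ∑ i, a.wt i / (u * a.lam j + 1 - u * a.lam i) ≤ 1 := by
    refine (Finset.sum_le_sum fun i _ => ?_).trans_eq a.total
    exact div_le_self (a.pos i).le (by linarith [hj' i])
  obtain ⟨E, hE, hF⟩ := intermediate_value_Icc' hle hc ⟨hhi, hlo⟩
  exact ⟨E, fun i => by linarith [hpos E hE i], hF⟩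

/-- The root `E` at `u`. -/
noncomputable def Atoms.eroot (u : ℝ) : ℝ := (a.exists_root u).choose

/-- `1 / (E - u λ_i)`. -/
noncomputable def Atoms.zed (u : ℝ) (i : Fin K) : ℝ := (a.eroot u - u * a.lam i)⁻¹

lemma Atoms.eroot_gt (u : ℝ) (i : Fin K) : 0 < a.eroot u - u * a.lam i :=
  sub_pos.2 ((a.exists_root u).choose_spec.1 i)

lemma Atoms.sum_wt_zed (u : ℝ) : ∑ i, a.wt i * a.zed u i = 1 := by
  simpa [Atoms.zed, Atoms.eroot, div_eq_mul_inv] using (a.exists_root u).choose_spec.2

lemma Atoms.eroot_unique {u E : ℝ} (h : ∀ i, u * a.lam i < E)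
    (hF : ∑ i, a.wt i / (E - u * a.lam i) = 1) : E = a.eroot u := by
  by_contra hne
  have hs := a.sum_wt_zed u
  simp only [Atoms.zed, ← div_eq_mul_inv] at hs
  rcases lt_or_gt_of_ne hne with hl | hl
  · have := Finset.sum_lt_sum_of_nonempty a.univ_nonempty
      (f := fun i => a.wt i / (a.eroot u - u * a.lam i)) (g := fun i => a.wt i / (E - u * a.lam i))
      fun i _ => div_lt_div_of_pos_left (a.pos i) (sub_pos.2 (h i)) (by linarith)
    linarith
  · have := Finset.sum_lt_sum_of_nonempty a.univ_nonempty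
      (f := fun i => a.wt i / (E - u * a.lam i)) (g := fun i => a.wt i / (a.eroot u - u * a.lam i))
      fun i _ => div_lt_div_of_pos_left (a.pos i) (a.eroot_gt u i) (by linarith)
    linarith

lemma Atoms.eroot_zero : a.eroot 0 = 1 :=
  (a.eroot_unique (fun i => by simp) (by simp [a.total])).symm

lemma Atoms.zed_pos (u : ℝ) (i : Fin K) : 0 < a.zed u i := inv_pos.2 (a.eroot_gt u i)

lemma Atoms.zed_zero (i : Fin K) : a.zed 0 i = 1 := by simp [Atoms.zed, a.eroot_zero]

lemma Atoms.zed_le (u : ℝ) (i : Fin K) : a.zed u i ≤ (a.wt i)⁻¹ := by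
  rw [← one_div, le_div_iff₀ (a.pos i), mul_comm]
  exact (Finset.single_le_sum (fun j _ => mul_nonneg (a.pos j).le (a.zed_pos u j).le)
    (Finset.mem_univ i)).trans_eq (a.sum_wt_zed u)

/-- The sum `∑ w_i z_i z'_i` at two arguments. -/
noncomputable def Atoms.zz (u v : ℝ) : ℝ := ∑ i, a.wt i * a.zed u i * a.zed v i

lemma Atoms.zz_pos (u v : ℝ) : 0 < a.zz u v :=
  Finset.sum_pos (fun i _ => mul_pos (mul_pos (a.pos i) (a.zed_pos u i)) (a.zed_pos v i))
    a.univ_nonempty

lemma Atoms.eroot_sub (u v : ℝ) :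
    (a.eroot v - a.eroot u) * a.zz u v =
      (v - u) * ∑ i, a.lam i * (a.wt i * a.zed u i * a.zed v i) := by
  have h : ∀ i, a.wt i * a.zed u i - a.wt i * a.zed v i =
      (a.eroot v - a.eroot u) * (a.wt i * a.zed u i * a.zed v i) -
        (v - u) * (a.lam i * (a.wt i * a.zed u i * a.zed v i)) := fun i => by
    have h1 : (a.eroot u - u * a.lam i) * a.zed u i = 1 := mul_inv_cancel₀ (a.eroot_gt u i).ne'
    have h2 : (a.eroot v - v * a.lam i) * a.zed v i = 1 := mul_inv_cancel₀ (a.eroot_gt v i).ne'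
    linear_combination a.wt i * a.zed v i * h1 - a.wt i * a.zed u i * h2
  have := Finset.sum_congr rfl (fun i (_hi : i ∈ (Finset.univ : Finset (Fin K))) => h i)
  simp only [Finset.sum_sub_distrib, ← Finset.mul_sum, a.sum_wt_zed, sub_self] at this
  simp only [Atoms.zz]
  linarith

/-- A bound on the atoms. -/
noncomputable def Atoms.rad : ℝ := ∑ i, |a.lam i|

lemma Atoms.rad_nonneg : 0 ≤ a.rad := Finset.sum_nonneg fun i _ => abs_nonneg _

lemma Atoms.abs_lam_le (i : Fin K) : |a.lam i| ≤ a.rad :=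
  Finset.single_le_sum (f := fun j => |a.lam j|) (fun j _ => abs_nonneg _) (Finset.mem_univ i)

lemma Atoms.eroot_lip (u v : ℝ) : |a.eroot v - a.eroot u| ≤ a.rad * |v - u| := by
  refine le_of_mul_le_mul_right ?_ (a.zz_pos u v)
  rw [← abs_of_pos (a.zz_pos u v), ← abs_mul, a.eroot_sub u v, abs_mul, abs_of_pos (a.zz_pos u v),
    mul_comm a.rad, mul_assoc]
  gcongr
  refine (Finset.abs_sum_le_sum_abs _ _).trans ?_
  rw [Atoms.zz, Finset.mul_sum]
  refine Finset.sum_le_sum fun i _ => ?_
  have h0 : 0 ≤ a.wt i * a.zed u i * a.zed v i :=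
    mul_nonneg (mul_nonneg (a.pos i).le (a.zed_pos u i).le) (a.zed_pos v i).le
  rw [abs_mul, abs_of_nonneg h0]
  exact mul_le_mul_of_nonneg_right (a.abs_lam_le i) h0

lemma Atoms.continuous_eroot : Continuous a.eroot :=
  (LipschitzWith.of_dist_le' fun u v => by
    simpa [Real.dist_eq, abs_sub_comm] using a.eroot_lip u v).continuous

lemma Atoms.continuous_zed (i : Fin K) : Continuous fun u => a.zed u i :=
  (a.continuous_eroot.sub (continuous_id.mul continuous_const)).inv₀ fun u => (a.eroot_gt u i).ne'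

/-- The weights `w_i z_i ^ 2`, normalised. -/
noncomputable def Atoms.prob (u : ℝ) (i : Fin K) : ℝ := a.wt i * a.zed u i * a.zed u i / a.zz u u

/-- The average of `λ` under `prob`. -/
noncomputable def Atoms.avg (u : ℝ) : ℝ := ∑ i, a.lam i * a.prob u i

lemma Atoms.prob_nonneg (u : ℝ) (i : Fin K) : 0 ≤ a.prob u i :=
  div_nonneg (mul_nonneg (mul_nonneg (a.pos i).le (a.zed_pos u i).le) (a.zed_pos u i).le)
    (a.zz_pos u u).le

lemma Atoms.sum_prob (u : ℝ) : ∑ i, a.prob u i = 1 := by
  simp only [Atoms.prob, ← Finset.sum_div]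
  exact div_self (a.zz_pos u u).ne'

lemma Atoms.prob_le_one (u : ℝ) (i : Fin K) : a.prob u i ≤ 1 :=
  (Finset.single_le_sum (fun j _ => a.prob_nonneg u j) (Finset.mem_univ i)).trans_eq (a.sum_prob u)

lemma Atoms.prob_zero (i : Fin K) : a.prob 0 i = a.wt i := by
  simp [Atoms.prob, Atoms.zz, a.zed_zero, a.total]

lemma Atoms.abs_avg_le (u : ℝ) : |a.avg u| ≤ a.rad := by
  refine (Finset.abs_sum_le_sum_abs _ _).trans ?_
  refine (Finset.sum_le_sum (g := fun i => a.rad * a.prob u i) fun i _ => ?_).trans_eq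
    (by rw [← Finset.mul_sum, a.sum_prob, mul_one])
  rw [abs_mul, abs_of_nonneg (a.prob_nonneg u i)]
  exact mul_le_mul_of_nonneg_right (a.abs_lam_le i) (a.prob_nonneg u i)

lemma Atoms.hasDerivAt_eroot (u : ℝ) : HasDerivAt a.eroot (a.avg u) u := by
  rw [hasDerivAt_iff_tendsto_slope]
  have hc : Continuous fun v => (∑ i, a.lam i * (a.wt i * a.zed u i * a.zed v i)) / a.zz u v := by
    refine Continuous.div ?_ ?_ fun v => (a.zz_pos u v).ne'
    · exact continuous_finsetSum _ fun i _ =>
        continuous_const.mul (continuous_const.mul (a.continuous_zed i))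
    · exact continuous_finsetSum _ fun i _ => continuous_const.mul (a.continuous_zed i)
  have heq : a.avg u = (∑ i, a.lam i * (a.wt i * a.zed u i * a.zed u i)) / a.zz u u := by
    simp only [Atoms.avg, Atoms.prob, Finset.sum_div, mul_div_assoc]
  rw [heq]
  refine ((hc.tendsto u).mono_left nhdsWithin_le_nhds).congr' ?_
  filter_upwards [self_mem_nhdsWithin] with v hv
  have hvu : v - u ≠ 0 := sub_ne_zero.2 hv
  rw [slope_def_field, div_eq_div_iff (a.zz_pos u v).ne' hvu, a.eroot_sub u v]
  ring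

lemma Atoms.hasDerivAt_zed (u : ℝ) (i : Fin K) :
    HasDerivAt (fun v => a.zed v i) (a.zed u i ^ 2 * (a.lam i - a.avg u)) u := by
  refine (((a.hasDerivAt_eroot u).sub ((hasDerivAt_id u).mul_const (a.lam i))).inv
    (a.eroot_gt u i).ne').congr_deriv ?_
  have h : (a.eroot u - u * a.lam i) ≠ 0 := (a.eroot_gt u i).ne'
  simp only [Atoms.zed, inv_pow]
  field_simp
  simp [id]
  ring

/-- The derivative of `prob`. -/
noncomputable def Atoms.prob' (u : ℝ) (i : Fin K) : ℝ :=
  2 * a.prob u i * (a.zed u i * (a.lam i - a.avg u) -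
    ∑ j, a.prob u j * (a.zed u j * (a.lam j - a.avg u)))

lemma Atoms.hasDerivAt_prob (u : ℝ) (i : Fin K) :
    HasDerivAt (fun v => a.prob v i) (a.prob' u i) u := by
  have hq : ∀ j, HasDerivAt (fun v => a.wt j * a.zed v j * a.zed v j)
      (2 * (a.wt j * a.zed u j * a.zed u j) * (a.zed u j * (a.lam j - a.avg u))) u := fun j => by
    refine ((((a.hasDerivAt_zed u j).const_mul (a.wt j))).mul (a.hasDerivAt_zed u j)).congr_deriv ?_
    ring
  refine ((hq i).div (HasDerivAt.fun_sum fun j _ => hq j) (a.zz_pos u u).ne').congr_deriv ?_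
  change _ / a.zz u u ^ 2 = _
  have hS := (a.zz_pos u u).ne'
  have hsum : (∑ j, 2 * (a.wt j * a.zed u j * a.zed u j) * (a.zed u j * (a.lam j - a.avg u))) =
      2 * a.zz u u * ∑ j, a.prob u j * (a.zed u j * (a.lam j - a.avg u)) := by
    rw [Finset.mul_sum]
    refine Finset.sum_congr rfl fun j _ => ?_
    simp only [Atoms.prob]
    field_simp
  rw [hsum, Atoms.prob', show ∑ j, a.wt j * a.zed u j * a.zed u j = a.zz u u from rfl]
  generalize ∑ j, a.prob u j * (a.zed u j * (a.lam j - a.avg u)) = T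
  simp only [Atoms.prob]
  field_simp

/-- A Lipschitz constant of the weights. -/
noncomputable def Atoms.lipC : ℝ := 8 * a.rad * ∑ j, (a.wt j)⁻¹

lemma Atoms.lipC_nonneg : 0 ≤ a.lipC :=
  mul_nonneg (mul_nonneg (by norm_num) a.rad_nonneg)
    (Finset.sum_nonneg fun j _ => (inv_pos.2 (a.pos j)).le)

lemma Atoms.abs_zed_mul_le (u : ℝ) (i : Fin K) :
    |a.zed u i * (a.lam i - a.avg u)| ≤ (∑ j, (a.wt j)⁻¹) * (2 * a.rad) := by
  rw [abs_mul, abs_of_pos (a.zed_pos u i)]
  refine mul_le_mul ((a.zed_le u i).trans (Finset.single_le_sum (f := fun j => (a.wt j)⁻¹)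
    (fun j _ => (inv_pos.2 (a.pos j)).le) (Finset.mem_univ i))) ?_ (abs_nonneg _)
    (Finset.sum_nonneg fun j _ => (inv_pos.2 (a.pos j)).le)
  exact (abs_sub _ _).trans (by linarith [a.abs_lam_le i, a.abs_avg_le u])

lemma Atoms.abs_prob'_le (u : ℝ) (i : Fin K) : |a.prob' u i| ≤ a.lipC := by
  set B := (∑ j, (a.wt j)⁻¹) * (2 * a.rad) with hB
  have hB0 : 0 ≤ B := (abs_nonneg _).trans (a.abs_zed_mul_le u i)
  have hT : |∑ j, a.prob u j * (a.zed u j * (a.lam j - a.avg u))| ≤ B := by
    refine (Finset.abs_sum_le_sum_abs _ _).trans ?_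
    refine (Finset.sum_le_sum (g := fun j => a.prob u j * B) fun j _ => ?_).trans_eq
      (by rw [← Finset.sum_mul, a.sum_prob, one_mul])
    rw [abs_mul, abs_of_nonneg (a.prob_nonneg u j)]
    exact mul_le_mul_of_nonneg_left (a.abs_zed_mul_le u j) (a.prob_nonneg u j)
  rw [Atoms.prob', abs_mul, abs_mul, abs_two, abs_of_nonneg (a.prob_nonneg u i)]
  refine (mul_le_mul (mul_le_mul_of_nonneg_left (a.prob_le_one u i) zero_le_two)
    ((abs_sub _ _).trans (add_le_add (a.abs_zed_mul_le u i) hT)) (abs_nonneg _)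
    (by norm_num)).trans_eq ?_
  simp only [hB, Atoms.lipC]
  ring

lemma Atoms.prob_lip (u v : ℝ) (i : Fin K) : |a.prob u i - a.prob v i| ≤ a.lipC * |u - v| := by
  simpa [Real.norm_eq_abs] using Convex.norm_image_sub_le_of_norm_hasDerivWithin_le
    (fun x _ => (a.hasDerivAt_prob x i).hasDerivWithinAt) (fun x _ => a.abs_prob'_le x i)
    convex_univ (mem_univ v) (mem_univ u)

lemma Atoms.continuous_prob (i : Fin K) : Continuous fun u => a.prob u i :=
  continuous_iff_continuousAt.2 fun u => (a.hasDerivAt_prob u i).continuousAt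

lemma Atoms.avg_lip (u v : ℝ) : |a.avg u - a.avg v| ≤ a.rad * a.lipC * |u - v| := by
  simp only [Atoms.avg, ← Finset.sum_sub_distrib, ← mul_sub]
  refine (Finset.abs_sum_le_sum_abs _ _).trans ?_
  refine (Finset.sum_le_sum (g := fun i => |a.lam i| * (a.lipC * |u - v|)) fun i _ => ?_).trans_eq
    (by rw [← Finset.sum_mul, Atoms.rad]; ring)
  rw [abs_mul]
  exact mul_le_mul_of_nonneg_left (a.prob_lip u v i) (abs_nonneg _)

lemma Atoms.continuous_avg : Continuous a.avg :=
  continuous_finsetSum _ fun i _ => continuous_const.mul (a.continuous_prob i)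

lemma Atoms.avg_monotone : Monotone a.avg := by
  refine monotone_of_deriv_nonneg (f := a.avg) (fun u => ?_) fun u => ?_
  · exact (HasDerivAt.fun_sum fun i _ => (a.hasDerivAt_prob u i).const_mul (a.lam i)).differentiableAt
  · have hd : HasDerivAt a.avg (∑ i, a.lam i * a.prob' u i) u :=
      HasDerivAt.fun_sum fun i _ => (a.hasDerivAt_prob u i).const_mul (a.lam i)
    rw [hd.deriv]
    have hz : ∑ i, a.prob u i * (a.lam i - a.avg u) = 0 := by
      simp only [mul_sub, Finset.sum_sub_distrib, ← Finset.sum_mul, a.sum_prob, one_mul]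
      rw [sub_eq_zero]
      exact Finset.sum_congr rfl fun i _ => mul_comm _ _
    have : ∑ i, a.lam i * a.prob' u i =
        ∑ i, 2 * a.prob u i * a.zed u i * (a.lam i - a.avg u) ^ 2 := by
      have h0 : ∀ i, a.lam i * a.prob' u i =
          2 * a.prob u i * a.zed u i * (a.lam i - a.avg u) ^ 2 +
            2 * a.avg u * (a.prob u i * (a.zed u i * (a.lam i - a.avg u))) -
            2 * (∑ j, a.prob u j * (a.zed u j * (a.lam j - a.avg u))) * (a.lam i * a.prob u i) :=
        fun i => by simp only [Atoms.prob']; ring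
      simp only [h0, Finset.sum_sub_distrib, Finset.sum_add_distrib, ← Finset.mul_sum]
      change _ + _ - 2 * _ * a.avg u = _
      ring
    rw [this]
    exact Finset.sum_nonneg fun i _ =>
      mul_nonneg (mul_nonneg (mul_nonneg zero_le_two (a.prob_nonneg u i)) (a.zed_pos u i).le)
        (sq_nonneg _)

/-! ### The law -/

lemma Atoms.integral_law (f : ℝ → ℝ) : ∫ x, f x ∂a.law = ∑ i, a.wt i * f (a.lam i) := by
  rw [Atoms.law, integral_finsetSum_measure]
  · refine Finset.sum_congr rfl fun i _ => ?_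
    rw [integral_smul_measure, integral_dirac, ENNReal.toReal_ofReal (a.pos i).le, smul_eq_mul]
  · exact fun i _ => (integrable_dirac (by simp)).smul_measure ENNReal.ofReal_ne_top

instance Atoms.isProbabilityMeasure_law : IsProbabilityMeasure a.law := by
  refine ⟨?_⟩
  simp [Atoms.law, ← ENNReal.ofReal_sum_of_nonneg (fun i _ => (a.pos i).le), a.total]

lemma Atoms.support_law : a.law.support = range a.lam := by
  refine subset_antisymm (Measure.support_subset_of_isClosed (finite_range a.lam).isClosed ?_) ?_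
  · rw [mem_ae_iff]
    simp [Atoms.law]
  · rintro _ ⟨i, rfl⟩
    refine (Measure.mem_support_iff_forall _).2 fun U hU => ?_
    have hi : (0 : ENNReal) < ENNReal.ofReal (a.wt i) * Measure.dirac (a.lam i) U := by
      rw [Measure.dirac_apply_of_mem (mem_of_mem_nhds hU), mul_one]
      exact ENNReal.ofReal_pos.2 (a.pos i)
    simp only [Atoms.law, Measure.coe_finsetSum, Finset.sum_apply, Measure.smul_apply, smul_eq_mul]
    exact hi.trans_le (Finset.single_le_sum
      (f := fun j => ENNReal.ofReal (a.wt j) * Measure.dirac (a.lam j) U)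
      (fun j _ => zero_le) (Finset.mem_univ i))

lemma Atoms.zf_law {u : ℝ} (hu : 0 < u) : zf a.law u = a.eroot u / u := by
  obtain ⟨j, -, hj⟩ := Finset.exists_max_image Finset.univ a.lam a.univ_nonempty
  have hb : sSup a.law.support = a.lam j := by
    rw [a.support_law]
    exact IsGreatest.csSup_eq ⟨mem_range_self j, by rintro _ ⟨i, rfl⟩; exact hj i (Finset.mem_univ i)⟩
  have key : {z | sSup a.law.support < z ∧ ∫ x, (z - x)⁻¹ ∂a.law ≤ u} = Ici (a.eroot u / u) := by
    ext z
    simp only [hb, mem_ofPred_eq, mem_Ici, a.integral_law, div_le_iff₀ hu]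
    have hg : (∀ i, 0 < z - a.lam i) →
        ∑ i, a.wt i * (z - a.lam i)⁻¹ = u * ∑ i, a.wt i / (z * u - u * a.lam i) := fun hz => by
      rw [Finset.mul_sum]
      refine Finset.sum_congr rfl fun i _ => ?_
      rw [show z * u - u * a.lam i = u * (z - a.lam i) by ring]
      field_simp [hu.ne', (hz i).ne']
    have hsum : ∑ i, a.wt i / (a.eroot u - u * a.lam i) = 1 := by
      simpa [Atoms.zed, div_eq_mul_inv] using a.sum_wt_zed u
    constructor
    · rintro ⟨hz, hle⟩
      by_contra hlt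
      have hz' : ∀ i, 0 < z - a.lam i := fun i => by linarith [hj i (Finset.mem_univ i)]
      rw [hg hz'] at hle
      have := Finset.sum_lt_sum_of_nonempty a.univ_nonempty
        (f := fun i => a.wt i / (a.eroot u - u * a.lam i))
        (g := fun i => a.wt i / (z * u - u * a.lam i))
        fun i _ => div_lt_div_of_pos_left (a.pos i) (by nlinarith [hz' i]) (by linarith)
      nlinarith
    · intro hle
      have hz' : ∀ i, 0 < z - a.lam i := fun i => by
        have := a.eroot_gt u i
        by_contra h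
        nlinarith
      refine ⟨by linarith [hz' j], ?_⟩
      rw [hg hz']
      refine le_trans (mul_le_mul_of_nonneg_left (Finset.sum_le_sum
        (g := fun i => a.wt i / (a.eroot u - u * a.lam i)) fun i _ =>
          div_le_div_of_nonneg_left (a.pos i).le (a.eroot_gt u i) (by linarith)) hu.le) ?_
      rw [hsum, mul_one]
  rw [zf, key, csInf_Ici]

lemma Atoms.avg_zero : a.avg 0 = ∫ x, x ∂a.law := by
  rw [a.integral_law]
  exact Finset.sum_congr rfl fun i _ => by rw [a.prob_zero]; ring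

lemma Atoms.integral_avg {d : ℝ} (hd : 0 ≤ d) {β : ℝ} (hβ : 0 ≤ β) :
    ∫ s in (0 : ℝ)..β, a.avg (s * d) = β * rtr a.law (β * d) := by
  rcases hd.eq_or_lt with rfl | hd
  · simp [rtr, a.avg_zero]
  rcases hβ.eq_or_lt with rfl | hβ
  · simp
  have hu : 0 < β * d := mul_pos hβ hd
  rw [intervalIntegral.integral_comp_mul_right _ hd.ne', zero_mul,
    intervalIntegral.integral_eq_sub_of_hasDerivAt (fun x _ => a.hasDerivAt_eroot x)
      (a.continuous_avg.intervalIntegrable _ _), a.eroot_zero, rtr, if_neg hu.not_ge, a.zf_law hu,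
    smul_eq_mul]
  field_simp

lemma Atoms.share_eq {s d : ℝ} (hs : 0 ≤ s) (hd : 0 ≤ d) (i : Fin K) :
    a.share s d i = d * (a.wt i * a.zed (s * d) i) := by
  rcases hd.eq_or_lt with rfl | hd
  · simp [Atoms.share]
  rcases hs.eq_or_lt with rfl | hs
  · simp [Atoms.share, hd.not_ge, a.zed_zero]; ring
  rw [Atoms.share, if_neg hd.not_ge, if_neg hs.not_ge, a.zf_law (mul_pos hs hd), Atoms.zed]
  have := (a.eroot_gt (s * d) i).ne'
  field_simp

lemma Atoms.hasDerivAt_shareFun (s d : ℝ) (i : Fin K) :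
    HasDerivAt (fun e => e * (a.wt i * a.zed (s * e) i)) (a.prob (s * d) i) d := by
  refine ((hasDerivAt_id d).mul ((((a.hasDerivAt_zed (s * d) i).comp d
    ((hasDerivAt_id d).const_mul s))).const_mul (a.wt i))).congr_deriv ?_
  have hz : (a.eroot (s * d) - s * d * a.lam i) * a.zed (s * d) i = 1 :=
    mul_inv_cancel₀ (a.eroot_gt (s * d) i).ne'
  have hS : (a.eroot (s * d) - s * d * a.avg (s * d)) * a.zz (s * d) (s * d) = 1 := by
    have hA : a.avg (s * d) * a.zz (s * d) (s * d) =
        ∑ j, a.lam j * (a.wt j * a.zed (s * d) j * a.zed (s * d) j) := by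
      simp only [Atoms.avg, Atoms.prob, Finset.sum_mul]
      exact Finset.sum_congr rfl fun j _ => by field_simp [(a.zz_pos (s * d) (s * d)).ne']
    rw [sub_mul, mul_assoc, hA, Atoms.zz, Finset.mul_sum, Finset.mul_sum, ← Finset.sum_sub_distrib]
    refine (Finset.sum_congr rfl fun j _ => ?_).trans (a.sum_wt_zed (s * d))
    have : (a.eroot (s * d) - s * d * a.lam j) * a.zed (s * d) j = 1 :=
      mul_inv_cancel₀ (a.eroot_gt (s * d) j).ne'
    linear_combination a.wt j * a.zed (s * d) j * this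
  simp only [Function.comp, id, Atoms.prob, mul_one, one_mul]
  rw [eq_div_iff (a.zz_pos _ _).ne']
  linear_combination a.wt i * a.zed (s * d) i ^ 2 * hS -
    a.wt i * a.zed (s * d) i * a.zz (s * d) (s * d) * hz

lemma Atoms.rate_eq {s d : ℝ} (hs : 0 ≤ s) (hd : 0 ≤ d) (i : Fin K) :
    a.rate s d i = a.prob (s * d) i := by
  rcases hd.eq_or_lt with rfl | hd
  · simp [Atoms.rate, a.prob_zero]
  rw [Atoms.rate, if_neg hd.not_ge]
  refine ((a.hasDerivAt_shareFun s d i).congr_of_eventuallyEq ?_).deriv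
  filter_upwards [Ioi_mem_nhds hd] with e he
  exact a.share_eq hs (le_of_lt he) i

end Vale.Agent.P166F
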